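import Mathlib.Data.ZMod.Basic
import Mathlib.Data.Fin.VecNotation
import Mathlib.Logic.Relation
import Mathlib.Tactic.Abel
import Mathlib.Tactic.Linarith
import Mathlib.Tactic.Tauto
import Mathlib.Tactic.FinCases
import Mathlib.Tactic.Push
import Mathlib.Tactic.Ring
import Mathlib.Algebra.Order.Group.Int

/-!
# First cohomology of vertex sets of a flag complex (P073, topology)

`A` is a reflexive symmetric relation on the vertex type `V` (simplices = finite pairwise related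
sets). For a vertex set `S`, a 1-cochain `a : V → V → M` is a cocycle on `S` if
`a x y + a y z = a x z` on pairwise related triples of `S` and exact on `S` if
`a x y = φ y - φ x` on related pairs of `S`. `H1z A M S` = every cocycle on `S` is exact.
-/

namespace Vale.Agent.P073.HOne

variable {V W : Type*} {M : Type*} [AddCommGroup M]

/-- `a` is a cocycle on the full subcomplex spanned by `S`. -/
def Coc (A : V → V → Prop) (S : Set V) (a : V → V → M) : Prop :=
  ∀ x ∈ S, ∀ y ∈ S, ∀ z ∈ S, A x y → A y z → A x z → a x y + a y z = a x z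

/-- `a` is a coboundary on the full subcomplex spanned by `S`. -/
def Ex (A : V → V → Prop) (S : Set V) (a : V → V → M) : Prop :=
  ∃ φ : V → M, ∀ x ∈ S, ∀ y ∈ S, A x y → a x y = φ y - φ x

/-- the first cohomology (coefficients `M`) of the full subcomplex spanned by `S` vanishes. -/
def H1z (A : V → V → Prop) (M : Type*) [AddCommGroup M] (S : Set V) : Prop :=
  ∀ a : V → V → M, Coc A S a → Ex A S a

/-- `x` and `y` are joined by a chain of related points of `S`. -/
def Joined (A : V → V → Prop) (S : Set V) (x y : V) : Prop :=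
  x ∈ S ∧ Relation.ReflTransGen (fun u v => v ∈ S ∧ A u v) x y

/-- `S` is connected (possibly empty). -/
def Conn (A : V → V → Prop) (S : Set V) : Prop := ∀ x ∈ S, ∀ y ∈ S, Joined A S x y

section basic

variable {A : V → V → Prop} {S T : Set V} {a : V → V → M}

theorem Coc.mono (h : Coc A S a) (hTS : T ⊆ S) : Coc A T a :=
  fun x hx y hy z hz => h x (hTS hx) y (hTS hy) z (hTS hz)

theorem Ex.mono (h : Ex A S a) (hTS : T ⊆ S) : Ex A T a := by
  obtain ⟨φ, hφ⟩ := h
  exact ⟨φ, fun x hx y hy => hφ x (hTS hx) y (hTS hy)⟩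

theorem Coc.self (hr : ∀ x, A x x) (h : Coc A S a) {x : V} (hx : x ∈ S) : a x x = 0 := by
  have := h x hx x hx x hx (hr x) (hr x) (hr x)
  simpa using this

theorem Coc.symm (hr : ∀ x, A x x) (hs : ∀ x y, A x y → A y x) (h : Coc A S a) {x y : V}
    (hx : x ∈ S) (hy : y ∈ S) (hxy : A x y) : a y x = - a x y := by
  have := h x hx y hy x hx hxy (hs _ _ hxy) (hr x)
  rw [h.self hr hx] at this
  exact (neg_eq_of_add_eq_zero_right this).symm

theorem Ex.coc (h : Ex A S a) : Coc A S a := by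
  obtain ⟨φ, hφ⟩ := h
  intro x hx y hy z hz hxy hyz hxz
  rw [hφ x hx y hy hxy, hφ y hy z hz hyz, hφ x hx z hz hxz]
  abel

theorem Joined.mono {x y : V} (h : Joined A S x y) (hST : S ⊆ T) : Joined A T x y :=
  ⟨hST h.1, Relation.ReflTransGen.mono (fun _ _ hv => ⟨hST hv.1, hv.2⟩) _ _ h.2⟩

theorem Joined.right_mem {x y : V} (h : Joined A S x y) : y ∈ S := by
  obtain ⟨hx, h⟩ := h
  induction h with
  | refl => exact hx
  | tail _ h2 _ => exact h2.1

theorem Joined.refl {x : V} (hx : x ∈ S) : Joined A S x x := ⟨hx, .refl⟩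

theorem Joined.trans {x y z : V} (h : Joined A S x y) (h' : Joined A S y z) : Joined A S x z :=
  ⟨h.1, h.2.trans h'.2⟩

theorem Joined.single {x y : V} (hx : x ∈ S) (hy : y ∈ S) (h : A x y) : Joined A S x y :=
  ⟨hx, .single ⟨hy, h⟩⟩

theorem Joined.symm (hs : ∀ x y, A x y → A y x) {x y : V} (h : Joined A S x y) :
    Joined A S y x := by
  obtain ⟨hx, h⟩ := h
  induction h with
  | refl => exact Joined.refl hx
  | @tail b c h1 h2 ih =>
    have hb : b ∈ S := Joined.right_mem (A := A) (S := S) ⟨hx, h1⟩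
    exact (Joined.single h2.1 hb (hs _ _ h2.2)).trans ih

/-- two potentials of the same cochain differ by a constant along a chain. -/
theorem Joined.diff_eq {φ ψ : V → M}
    (hφ : ∀ x ∈ S, ∀ y ∈ S, A x y → a x y = φ y - φ x)
    (hψ : ∀ x ∈ S, ∀ y ∈ S, A x y → a x y = ψ y - ψ x) {x y : V} (h : Joined A S x y) :
    φ y - ψ y = φ x - ψ x := by
  obtain ⟨hx, h⟩ := h
  induction h with
  | refl => rfl
  | @tail b c h1 h2 ih =>
    have hb : b ∈ S := Joined.right_mem (A := A) (S := S) ⟨hx, h1⟩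
    have e1 := hφ b hb c h2.1 h2.2
    have e2 := hψ b hb c h2.1 h2.2
    rw [← ih]
    have : φ c - φ b = ψ c - ψ b := by rw [← e1, ← e2]
    have h3 : φ c = ψ c - ψ b + φ b := by rw [← this]; abel
    rw [h3]; abel

/-- a locally constant correction: image of a chain under a map of vertex sets. -/
theorem Joined.map {B : W → W → Prop} {T : Set W} (f : V → W)
    (hf : ∀ x ∈ S, f x ∈ T) (hA : ∀ x ∈ S, ∀ y ∈ S, A x y → B (f x) (f y)) {x y : V}
    (h : Joined A S x y) : Joined B T (f x) (f y) := by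
  obtain ⟨hx, h⟩ := h
  induction h with
  | refl => exact Joined.refl (hf _ hx)
  | @tail b c h1 h2 ih =>
    have hb : b ∈ S := Joined.right_mem (A := A) (S := S) ⟨hx, h1⟩
    exact ih.trans (Joined.single (hf _ hb) (hf _ h2.1) (hA _ hb _ h2.1 h2.2))

/-- **Push lemma** (contiguous retraction): if `r` moves every point of `S` to a related point of
`R ⊆ S`, and for related `x, y ∈ S` the images are related and one of the two diagonals
`x, r y` / `r x, y` is related, then exactness on `R` gives exactness on `S`. -/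
theorem Ex.push {R : Set V} (hr : ∀ x, A x x) (hs : ∀ x y, A x y → A y x) (r : V → V)
    (hRS : R ⊆ S) (hrR : ∀ x ∈ S, r x ∈ R) (hxr : ∀ x ∈ S, A x (r x))
    (hrr : ∀ x ∈ S, ∀ y ∈ S, A x y → A (r x) (r y))
    (hdiag : ∀ x ∈ S, ∀ y ∈ S, A x y → A x (r y) ∨ A (r x) y)
    (ha : Coc A S a) (hR : Ex A R a) : Ex A S a := by
  obtain ⟨φ, hφ⟩ := hR
  refine ⟨fun x => φ (r x) - a x (r x), ?_⟩
  intro x hx y hy hxy
  change a x y = φ (r y) - a y (r y) - (φ (r x) - a x (r x))
  have hrx := hRS (hrR x hx)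
  have hry := hRS (hrR y hy)
  have e0 := hφ (r x) (hrR x hx) (r y) (hrR y hy) (hrr x hx y hy hxy)
  rcases hdiag x hx y hy hxy with hd | hd
  · have e1 := ha x hx y hy (r y) hry hxy (hxr y hy) hd
    have e2 := ha x hx (r x) hrx (r y) hry (hxr x hx) (hrr x hx y hy hxy) hd
    have : a x y = a x (r x) + a (r x) (r y) - a y (r y) := by rw [e2, ← e1]; abel
    rw [this, e0]; abel
  · have e1 := ha (r x) hrx x hx y hy (hs _ _ (hxr x hx)) hxy hd
    have e2 := ha (r x) hrx (y) hy (r y) hry hd (hxr y hy) (hrr x hx y hy hxy)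
    have e3 := ha.symm hr hs hx hrx (hxr x hx)
    rw [e3] at e1
    have : a x y = a x (r x) + a (r x) (r y) - a y (r y) := by rw [← e2, ← e1]; abel
    rw [this, e0]; abel

theorem H1z.push {R : Set V} (hr : ∀ x, A x x) (hs : ∀ x y, A x y → A y x) (r : V → V)
    (hRS : R ⊆ S) (hrR : ∀ x ∈ S, r x ∈ R) (hxr : ∀ x ∈ S, A x (r x))
    (hrr : ∀ x ∈ S, ∀ y ∈ S, A x y → A (r x) (r y))
    (hdiag : ∀ x ∈ S, ∀ y ∈ S, A x y → A x (r y) ∨ A (r x) y)
    (hR : H1z A M R) : H1z A M S := fun a ha =>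
  Ex.push hr hs r hRS hrR hxr hrr hdiag ha (hR a (ha.mono hRS))

/-- **Gluing lemma**: potentials on two pieces with connected intersection glue. -/
theorem Ex.union {S₁ S₂ : Set V}
    (hpair : ∀ x ∈ S₁ ∪ S₂, ∀ y ∈ S₁ ∪ S₂, A x y → (x ∈ S₁ ∧ y ∈ S₁) ∨ (x ∈ S₂ ∧ y ∈ S₂))
    (hconn : Conn A (S₁ ∩ S₂)) (h1 : Ex A S₁ a) (h2 : Ex A S₂ a) : Ex A (S₁ ∪ S₂) a := by
  classical
  obtain ⟨φ, hφ⟩ := h1
  obtain ⟨ψ, hψ⟩ := h2
  -- the constant
  obtain ⟨c, hc⟩ : ∃ c : M, ∀ x ∈ S₁ ∩ S₂, φ x - ψ x = c := by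
    by_cases hne : (S₁ ∩ S₂).Nonempty
    · obtain ⟨x₀, hx₀⟩ := hne
      refine ⟨φ x₀ - ψ x₀, fun x hx => ?_⟩
      exact Joined.diff_eq (A := A) (S := S₁ ∩ S₂) (a := a)
        (fun x hx y hy h => hφ x hx.1 y hy.1 h) (fun x hx y hy h => hψ x hx.2 y hy.2 h)
        (hconn x₀ hx₀ x hx)
    · exact ⟨0, fun x hx => (hne ⟨x, hx⟩).elim⟩
  refine ⟨fun x => if x ∈ S₁ then φ x else ψ x + c, ?_⟩
  intro x hx y hy hxy
  change a x y = (if y ∈ S₁ then φ y else ψ y + c) - (if x ∈ S₁ then φ x else ψ x + c)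
  have key : ∀ z ∈ S₂, (if z ∈ S₁ then φ z else ψ z + c) = ψ z + c := by
    intro z hz
    split_ifs with h
    · rw [← hc z ⟨h, hz⟩]; abel
    · rfl
  rcases hpair x hx y hy hxy with h | h
  · rw [if_pos h.1, if_pos h.2]; exact hφ x h.1 y h.2 hxy
  · rw [key x h.1, key y h.2, hψ x h.1 y h.2 hxy]; abel

theorem H1z.union {S₁ S₂ : Set V}
    (hpair : ∀ x ∈ S₁ ∪ S₂, ∀ y ∈ S₁ ∪ S₂, A x y → (x ∈ S₁ ∧ y ∈ S₁) ∨ (x ∈ S₂ ∧ y ∈ S₂))
    (hconn : Conn A (S₁ ∩ S₂)) (h1 : H1z A M S₁) (h2 : H1z A M S₂) : H1z A M (S₁ ∪ S₂) :=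
  fun a ha => Ex.union hpair hconn (h1 a (ha.mono Set.subset_union_left))
    (h2 a (ha.mono Set.subset_union_right))

theorem H1z.singleton (hr : ∀ x, A x x) (x : V) : H1z A M ({x} : Set V) := by
  intro a ha
  refine ⟨fun _ => 0, ?_⟩
  rintro y rfl z rfl _
  simpa using ha.self hr (Set.mem_singleton _)

end basic

end Vale.Agent.P073.HOne
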