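import Vale.Agent.P073.H773.HOne
import Mathlib.Order.Interval.Set.Pi
import Mathlib.Data.Int.Order.Basic
import Mathlib.Tactic.IntervalCases

/-!
# The Kuhn relation on `ι → ℤ` and boxes

`Kuhn x y` : `x ≤ y ≤ x + 1` or `y ≤ x ≤ y + 1` (coordinatewise): the 1-skeleton of the Kuhn
(Freudenthal) triangulation, which is a flag complex.
-/

namespace Vale.Agent.P073.HOne

variable {ι : Type*} {M : Type*} [AddCommGroup M]

/-- the Kuhn relation. -/
def Kuhn (x y : ι → ℤ) : Prop :=
  (∀ i, x i ≤ y i ∧ y i ≤ x i + 1) ∨ (∀ i, y i ≤ x i ∧ x i ≤ y i + 1)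

theorem Kuhn.refl (x : ι → ℤ) : Kuhn x x := Or.inl fun i => ⟨le_refl _, by linarith⟩

theorem Kuhn.symm {x y : ι → ℤ} (h : Kuhn x y) : Kuhn y x := Or.symm h

theorem Kuhn.rfl' : ∀ x : ι → ℤ, Kuhn x x := Kuhn.refl

theorem Kuhn.symm' : ∀ x y : ι → ℤ, Kuhn x y → Kuhn y x := fun _ _ h => Or.symm h

/-- coordinatewise monotone 1-Lipschitz maps preserve the Kuhn relation. -/
theorem Kuhn.map {κ : Type*} {x y : ι → ℤ} (h : Kuhn x y) (f : (ι → ℤ) → κ → ℤ)
    (hf : ∀ x y : ι → ℤ, (∀ i, x i ≤ y i ∧ y i ≤ x i + 1) →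
      ∀ k, f x k ≤ f y k ∧ f y k ≤ f x k + 1) : Kuhn (f x) (f y) :=
  h.imp (hf x y) (hf y x)

/-- clamp from below. -/
def up (t x : ι → ℤ) : ι → ℤ := fun i => max (x i) (t i)

/-- clamp from above. -/
def dn (t x : ι → ℤ) : ι → ℤ := fun i => min (x i) (t i)

theorem Kuhn.up {x y : ι → ℤ} (h : Kuhn x y) (t : ι → ℤ) : Kuhn (up t x) (up t y) := by
  refine h.map (HOne.up t) ?_
  intro x y hxy k
  have := hxy k
  simp only [HOne.up]
  constructor
  · exact max_le_max this.1 le_rfl
  · rcases le_total (y k) (t k) with h1 | h1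
    · rw [max_eq_right h1]; have := le_max_right (x k) (t k); linarith
    · rw [max_eq_left h1]; have := le_max_left (x k) (t k); linarith [hxy k]

theorem Kuhn.dn {x y : ι → ℤ} (h : Kuhn x y) (t : ι → ℤ) : Kuhn (dn t x) (dn t y) := by
  refine h.map (HOne.dn t) ?_
  intro x y hxy k
  have := hxy k
  simp only [HOne.dn]
  constructor
  · exact min_le_min this.1 le_rfl
  · rcases le_total (x k) (t k) with h1 | h1
    · rw [min_eq_left h1]; have := min_le_left (y k) (t k); linarith
    · rw [min_eq_right h1]; have := min_le_right (y k) (t k); linarith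

/-- pushing up by one unit: exactness on `{x ∈ S | t ≤ x}` implies exactness on `S`. -/
theorem Ex.push_up {S : Set (ι → ℤ)} {a : (ι → ℤ) → (ι → ℤ) → M} (t : ι → ℤ)
    (h1 : ∀ x ∈ S, ∀ i, t i ≤ x i + 1) (h2 : ∀ x ∈ S, up t x ∈ S)
    (ha : Coc Kuhn S a) (hR : Ex Kuhn {x | x ∈ S ∧ ∀ i, t i ≤ x i} a) : Ex Kuhn S a := by
  refine Ex.push (R := {x | x ∈ S ∧ ∀ i, t i ≤ x i}) Kuhn.rfl' Kuhn.symm' (up t)
    (fun x hx => hx.1) ?_ ?_ ?_ ?_ ha hR
  · intro x hx
    exact ⟨h2 x hx, fun i => le_max_right _ _⟩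
  · intro x hx
    left
    intro i
    exact ⟨le_max_left _ _, max_le (by linarith) (h1 x hx i)⟩
  · intro x _ y _ hxy
    exact hxy.up t
  · intro x hx y hy hxy
    rcases hxy with hxy | hxy
    · left; left
      intro i
      exact ⟨le_trans (hxy i).1 (le_max_left _ _), max_le (hxy i).2 (h1 x hx i)⟩
    · right; right
      intro i
      exact ⟨le_trans (hxy i).1 (le_max_left _ _), max_le (hxy i).2 (h1 y hy i)⟩

/-- pushing down by one unit. -/
theorem Ex.push_dn {S : Set (ι → ℤ)} {a : (ι → ℤ) → (ι → ℤ) → M} (t : ι → ℤ)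
    (h1 : ∀ x ∈ S, ∀ i, x i ≤ t i + 1) (h2 : ∀ x ∈ S, dn t x ∈ S)
    (ha : Coc Kuhn S a) (hR : Ex Kuhn {x | x ∈ S ∧ ∀ i, x i ≤ t i} a) : Ex Kuhn S a := by
  refine Ex.push (R := {x | x ∈ S ∧ ∀ i, x i ≤ t i}) Kuhn.rfl' Kuhn.symm' (dn t)
    (fun x hx => hx.1) ?_ ?_ ?_ ?_ ha hR
  · intro x hx
    exact ⟨h2 x hx, fun i => min_le_right _ _⟩
  · intro x hx
    right
    intro i
    refine ⟨min_le_left _ _, ?_⟩
    show x i ≤ min (x i) (t i) + 1
    rcases le_total (x i) (t i) with h | h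
    · rw [min_eq_left h]; linarith
    · rw [min_eq_right h]; exact h1 x hx i
  · intro x _ y _ hxy
    exact hxy.dn t
  · intro x hx y hy hxy
    rcases hxy with hxy | hxy
    · right; left
      intro i
      refine ⟨le_trans (min_le_left _ _) (hxy i).1, ?_⟩
      show y i ≤ min (x i) (t i) + 1
      rcases le_total (x i) (t i) with h | h
      · rw [min_eq_left h]; exact (hxy i).2
      · rw [min_eq_right h]; exact h1 y hy i
    · left; right
      intro i
      refine ⟨le_trans (min_le_left _ _) (hxy i).1, ?_⟩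
      show x i ≤ min (y i) (t i) + 1
      rcases le_total (y i) (t i) with h | h
      · rw [min_eq_left h]; exact (hxy i).2
      · rw [min_eq_right h]; exact h1 x hx i

theorem H1z.push_up {S : Set (ι → ℤ)} (t : ι → ℤ)
    (h1 : ∀ x ∈ S, ∀ i, t i ≤ x i + 1) (h2 : ∀ x ∈ S, up t x ∈ S)
    (hR : H1z Kuhn M {x | x ∈ S ∧ ∀ i, t i ≤ x i}) : H1z Kuhn M S :=
  fun a ha => Ex.push_up t h1 h2 ha (hR a (ha.mono fun _ h => h.1))

theorem H1z.push_dn {S : Set (ι → ℤ)} (t : ι → ℤ)
    (h1 : ∀ x ∈ S, ∀ i, x i ≤ t i + 1) (h2 : ∀ x ∈ S, dn t x ∈ S)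
    (hR : H1z Kuhn M {x | x ∈ S ∧ ∀ i, x i ≤ t i}) : H1z Kuhn M S :=
  fun a ha => Ex.push_dn t h1 h2 ha (hR a (ha.mono fun _ h => h.1))

theorem H1z.of_subsingleton {V : Type*} {A : V → V → Prop} (hr : ∀ x, A x x) {S : Set V}
    (hS : S.Subsingleton) : H1z A M S := by
  intro a ha
  refine ⟨fun _ => 0, fun x hx y hy _ => ?_⟩
  obtain rfl := hS hx hy
  simpa using ha.self hr hx

/-- boxes have trivial first cohomology. -/
theorem H1z.box (b : ι → ℤ) : ∀ (n : ℕ) (a : ι → ℤ), (∀ i, b i ≤ a i + n) →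
    H1z Kuhn M (Set.Icc a b) := by
  intro n
  induction n with
  | zero =>
    intro a hab
    refine H1z.of_subsingleton Kuhn.rfl' ?_
    intro x hx y hy
    funext i
    have h1 : a i ≤ x i := hx.1 i
    have h2 : x i ≤ b i := hx.2 i
    have h3 : a i ≤ y i := hy.1 i
    have h4 : y i ≤ b i := hy.2 i
    have h5 := hab i
    push_cast at h5
    omega
  | succ n ih =>
    intro a hab
    by_cases hne : a ≤ b
    · let t : ι → ℤ := fun i => min (a i + 1) (b i)
      have hat : ∀ i, a i ≤ t i := fun i => le_min (by linarith) (hne i)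
      have htb : ∀ i, t i ≤ b i := fun i => min_le_right _ _
      refine H1z.push_up t ?_ ?_ ?_
      · intro x hx i
        have := hx.1 i
        exact le_trans (min_le_left _ _) (by linarith)
      · intro x hx
        exact ⟨fun i => le_trans (hx.1 i) (le_max_left _ _), fun i => max_le (hx.2 i) (htb i)⟩
      · have hset : {x | x ∈ Set.Icc a b ∧ ∀ i, t i ≤ x i} = Set.Icc t b := by
          ext x
          constructor
          · rintro ⟨hx, h⟩; exact ⟨h, hx.2⟩
          · rintro ⟨h1, h2⟩; exact ⟨⟨fun i => le_trans (hat i) (h1 i), h2⟩, h1⟩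
        rw [hset]
        refine ih t ?_
        intro i
        have := hab i
        push_cast at this
        show b i ≤ min (a i + 1) (b i) + n
        rcases le_total (a i + 1) (b i) with h | h
        · rw [min_eq_left h]; linarith
        · rw [min_eq_right h]; linarith [Int.natCast_nonneg n]
    · refine H1z.of_subsingleton Kuhn.rfl' ?_
      intro x hx
      exact absurd (le_trans hx.1 hx.2) hne

theorem H1z.Icc [Finite ι] (a b : ι → ℤ) : H1z Kuhn M (Set.Icc a b) := by
  obtain ⟨n, hn⟩ : ∃ n : ℕ, ∀ i, b i ≤ a i + n := by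
    cases nonempty_fintype ι
    refine ⟨∑ i, (b i - a i).toNat, fun i => ?_⟩
    have h1 : (b i - a i).toNat ≤ ∑ i, (b i - a i).toNat :=
      Finset.single_le_sum (f := fun i => (b i - a i).toNat) (fun _ _ => Nat.zero_le _)
        (Finset.mem_univ i)
    have h2 : b i - a i ≤ ((b i - a i).toNat : ℤ) := Int.self_le_toNat _
    have h3 : ((b i - a i).toNat : ℤ) ≤ ((∑ i, (b i - a i).toNat : ℕ) : ℤ) := by exact_mod_cast h1
    linarith
  exact H1z.box b n a hn

/-- every point of a box is joined to the top corner inside the box. -/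
theorem Joined.box_top (b : ι → ℤ) : ∀ (n : ℕ) (a x : ι → ℤ), x ∈ Set.Icc a b →
    (∀ i, b i ≤ x i + n) → Joined Kuhn (Set.Icc a b) x b := by
  intro n
  induction n with
  | zero =>
    intro a x hx h
    have : x = b := by
      funext i
      have h1 : x i ≤ b i := hx.2 i
      have h2 := h i
      push_cast at h2
      omega
    subst this
    exact Joined.refl hx
  | succ n ih =>
    intro a x hx h
    let y : ι → ℤ := fun i => min (x i + 1) (b i)
    have hy : y ∈ Set.Icc a b :=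
      ⟨fun i => le_min (by linarith [hx.1 i]) (le_trans (hx.1 i) (hx.2 i)), fun i => min_le_right _ _⟩
    have hxy : Kuhn x y := Or.inl fun i => ⟨le_min (by linarith) (hx.2 i), min_le_left _ _⟩
    refine (Joined.single hx hy hxy).trans (ih a y hy ?_)
    intro i
    have := h i
    push_cast at this
    show b i ≤ min (x i + 1) (b i) + n
    rcases le_total (x i + 1) (b i) with h' | h'
    · rw [min_eq_left h']; linarith
    · rw [min_eq_right h']; linarith [Int.natCast_nonneg n]

theorem Conn.Icc [Finite ι] (a b : ι → ℤ) : Conn Kuhn (Set.Icc a b) := by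
  obtain ⟨n, hn⟩ : ∃ n : ℕ, ∀ i, b i ≤ a i + n := by
    cases nonempty_fintype ι
    refine ⟨∑ i, (b i - a i).toNat, fun i => ?_⟩
    have h1 : (b i - a i).toNat ≤ ∑ i, (b i - a i).toNat :=
      Finset.single_le_sum (f := fun i => (b i - a i).toNat) (fun _ _ => Nat.zero_le _)
        (Finset.mem_univ i)
    have h2 : b i - a i ≤ ((b i - a i).toNat : ℤ) := Int.self_le_toNat _
    have h3 : ((b i - a i).toNat : ℤ) ≤ ((∑ i, (b i - a i).toNat : ℕ) : ℤ) := by exact_mod_cast h1
    linarith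
  intro x hx y hy
  have h1 : Joined Kuhn (Set.Icc a b) x b :=
    Joined.box_top b n a x hx fun i => by linarith [hx.1 i, hn i]
  have h2 : Joined Kuhn (Set.Icc a b) y b :=
    Joined.box_top b n a y hy fun i => by linarith [hy.1 i, hn i]
  exact h1.trans (h2.symm Kuhn.symm')

end Vale.Agent.P073.HOne
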